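import Vale.Agent.P154.Data.Cfgs

namespace Vale.Agent.P154

theorem dD3K1_6 : chk cfgD3K1 []
 (.lf ⟨⟨96, 96, 256, 64, 128, 0, 1, 1, 2, 0, -53, 0, 53, -14, -37, 14, 37, 1179648, 1179261, 1179648, 1178872, 1179648, 1179267, 1179648, 1178888⟩, 0, 1141545, 73, 1141545, 3228777, 128, false, false, false, false, false, -256, -256, -256, 256, 208⟩)
  ⟨0, 128, 128, 256, -64, 64, -64, 64⟩ = true := by decide +kernel

theorem dD3K1_7 : chk cfgD3K1 []
 (.spC 128 (.lf ⟨⟨96, 96, 64, 256, 128, 1, 2, 0, 1, -14, -37, 14, 37, 0, -53, 0, 53, 1179648, 1179648, 1179261, 1178872, 1179648, 1179648, 1179267, 1178888⟩, 1141545, 3228777, 128, 0, 1141545, 73, false, false, false, false, false, -256, -256, -256, 256, 208⟩)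
 (.lf ⟨⟨96, 96, 64, 64, 32, 1, 2, 1, 2, -14, -37, 14, 37, -14, -37, 14, 37, 294815, 294718, 294718, 294522, 294817, 294722, 294722, 294534⟩, 1141545, 3228777, 128, 1141545, 3228777, 128, false, false, false, false, false, -256, -256, -256, 256, 192⟩))
  ⟨128, 256, 0, 256, -64, 64, -64, 64⟩ = true := by decide +kernel

theorem dD3K1_8 : chk cfgD3K1 []
 (.lf ⟨⟨48, 48, 128, 64, 64, 0, 1, 1, 2, 0, -37, 0, 37, -19, -53, 19, 53, 147456, 147261, 147456, 147064, 147456, 147267, 147456, 147080⟩, 0, 3228777, 104, 3228777, 9132360, 181, false, false, false, false, false, -256, -256, -256, 256, 184⟩)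
  ⟨0, 256, 256, 512, -64, 64, -64, 64⟩ = true := by decide +kernel

theorem dD3K1_9 : chk cfgD3K1 []
 (.spC 256 (.lf ⟨⟨48, 48, 64, 128, 64, 1, 2, 0, 1, -19, -53, 19, 53, 0, -37, 0, 37, 147456, 147456, 147261, 147064, 147456, 147456, 147267, 147080⟩, 3228777, 9132360, 181, 0, 3228777, 104, false, false, false, false, false, -256, -256, -256, 256, 184⟩)
 (.lf ⟨⟨48, 48, 64, 64, 16, 1, 2, 1, 2, -19, -53, 19, 53, -19, -53, 19, 53, 36815, 36766, 36766, 36666, 36817, 36770, 36770, 36678⟩, 3228777, 9132360, 181, 3228777, 9132360, 181, false, false, false, false, false, -256, -256, -256, 256, 176⟩))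
  ⟨256, 512, 0, 512, -64, 64, -64, 64⟩ = true := by decide +kernel

theorem dD3K1_10 : chk cfgD3K1 []
 (.spC 256 (.lf ⟨⟨24, 48, 4096, 16384, 4096, 1, 2, 0, 1, -1673, -4730, 1673, 4730, 0, -4730, 0, 4730, 4718592, 4718592, 4706062, 4693333, 4718592, 4718592, 4706546, 4694699⟩, 9132360, 25830214, 256, 0, 3228777, 104, false, false, false, false, false, -256, -256, -256, 256, 240⟩)
 (.lf ⟨⟨24, 48, 32, 64, 16, 1, 2, 1, 2, -14, -37, 14, 37, -19, -53, 19, 53, 18383, 18333, 18333, 18232, 18385, 18339, 18339, 18248⟩, 9132360, 25830214, 256, 3228777, 9132360, 181, false, false, false, false, false, -256, -256, -256, 256, 168⟩))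
  ⟨512, 1024, 0, 512, -64, 64, -64, 64⟩ = true := by decide +kernel

theorem dD3K1_11 : chk cfgD3K1 []
 (.spQ 32 (.spA 512 (.lf ⟨⟨24, 24, 128, 32, 32, 0, 1, 1, 2, 0, -53, 0, 53, -14, -37, 7, 19, 18432, 18333, 18432, 18232, 18432, 18339, 18432, 18248⟩, 0, 9132360, 147, 9132360, 25830214, 256, false, false, false, false, false, -256, -256, -256, 256, 168⟩)
 (.lf ⟨⟨24, 24, 32, 32, 8, 1, 2, 1, 2, -14, -37, 14, 37, -14, -37, 7, 19, 4583, 4558, 4558, 4506, 4585, 4562, 4562, 4518⟩, 9132360, 25830214, 256, 9132360, 25830214, 256, false, false, false, false, false, -256, -256, -256, 256, 152⟩))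
 (.lf ⟨⟨12, 24, 64, 32, 16, 0, 1, 1, 2, 0, -37, 0, 37, 6, 18, 14, 37, 4608, 4558, 4608, 4506, 4608, 4562, 4608, 4518⟩, 0, 25830214, 209, 9132360, 25830214, 256, false, false, false, false, false, -256, 128, -256, 256, 152⟩))
  ⟨0, 1024, 512, 1024, -64, 64, -64, 64⟩ = true := by decide +kernel

end Vale.Agent.P154
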