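import Vale.Agent.P154.Data.Cfgs

namespace Vale.Agent.P154

theorem dD3K1_12 : chk cfgD3K1 []
 (.spQ 32 (.lf ⟨⟨12, 12, 64, 32, 16, 0, 1, 1, 2, 0, -37, 0, 37, -19, 36, 10, 27, 2304, 2253, 2304, 2200, 2304, 2259, 2304, 2216⟩, 0, 25830214, 209, 25830214, 73058878, 362, false, true, false, false, false, -256, -256, -256, 256, 144⟩)
 (.lf ⟨⟨12, 12, 64, 32, 16, 0, 1, 1, 2, 0, -37, 0, 37, 8, 25, 19, 53, 2304, 2253, 2304, 2200, 2304, 2259, 2304, 2216⟩, 0, 25830214, 209, 25830214, 73058878, 362, false, false, false, false, false, -256, 128, -256, 256, 144⟩))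
  ⟨0, 1024, 1024, 2048, -64, 64, -64, 64⟩ = true := by decide +kernel

theorem dD3K1_13 : chk cfgD3K1 []
 (.lf ⟨⟨12, 6, 64, 16, 8, 0, 1, 1, 2, 0, -37, 0, 37, 9, 36, 14, 37, 576, 550, 576, 522, 576, 554, 576, 534⟩, 0, 25830214, 209, 73058878, 206641711, 512, false, true, false, false, true, -256, 181, -256, 256, 136⟩)
  ⟨0, 1024, 2048, 4096, -64, 64, -64, 64⟩ = true := by decide +kernel

theorem dD3K1_14 : chk cfgD3K1 []
 (.spC 2048 (.spC 1024 (.spP 32 (.lf ⟨⟨12, 12, 32, 64, 16, 1, 2, 0, 1, -19, 36, 10, 27, 0, -37, 0, 37, 2304, 2304, 2253, 2200, 2304, 2304, 2259, 2216⟩, 25830214, 73058878, 362, 0, 25830214, 209, true, false, false, false, false, -256, -256, -256, 256, 144⟩)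
 (.lf ⟨⟨12, 12, 32, 64, 16, 1, 2, 0, 1, 8, 25, 19, 53, 0, -37, 0, 37, 2304, 2304, 2253, 2200, 2304, 2304, 2259, 2216⟩, 25830214, 73058878, 362, 0, 25830214, 209, false, false, false, false, false, 128, -256, -256, 256, 144⟩))
 (.lf ⟨⟨12, 12, 32, 32, 4, 1, 2, 1, 2, -19, 36, 19, 53, -19, 36, 19, 53, 563, 550, 550, 522, 565, 554, 554, 534⟩, 25830214, 73058878, 362, 25830214, 73058878, 362, true, true, false, false, false, -256, -256, -256, 256, 136⟩))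
 (.lf ⟨⟨12, 6, 32, 16, 4, 1, 2, 1, 2, -19, 36, 19, 53, 9, 36, 14, 37, 275, 261, 261, 232, 277, 267, 267, 248⟩, 25830214, 73058878, 362, 73058878, 206641711, 512, true, true, false, false, true, -256, 181, -256, 256, 128⟩))
  ⟨1024, 2048, 0, 4096, -64, 64, -64, 64⟩ = true := by decide +kernel

theorem dD3K1_15 : chk cfgD3K1 []
 (.spC 2048 (.spC 1024 (.lf ⟨⟨6, 12, 16, 64, 8, 1, 2, 0, 1, 9, 36, 14, 37, 0, -37, 0, 37, 576, 576, 550, 522, 576, 576, 554, 534⟩, 73058878, 206641711, 512, 0, 25830214, 209, true, false, false, true, false, 181, -256, -256, 256, 136⟩)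
 (.lf ⟨⟨6, 12, 16, 32, 4, 1, 2, 1, 2, 9, 36, 14, 37, -19, 36, 19, 53, 275, 261, 261, 232, 277, 267, 267, 248⟩, 73058878, 206641711, 512, 25830214, 73058878, 362, true, true, false, true, false, 181, -256, -256, 256, 128⟩))
 (.lf ⟨⟨6, 6, 64, 64, 8, 1, 2, 1, 2, 36, 147, 53, 148, 36, 147, 53, 148, 263, 239, 239, 191, 267, 248, 248, 214⟩, 73058878, 206641711, 512, 73058878, 206641711, 512, true, true, false, true, true, 181, 181, -1, 256, 128⟩))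
  ⟨2048, 4096, 0, 4096, -64, 64, -64, 64⟩ = true := by decide +kernel

/-- cells -/
def xsD3K1 : List Cell := [⟨0, 32, 0, 16, -64, 64, -64, 64⟩,
 ⟨0, 32, 16, 32, -64, 64, -64, 64⟩,
 ⟨0, 32, 32, 64, -64, 64, -64, 64⟩,
 ⟨32, 64, 0, 64, -64, 64, -64, 64⟩,
 ⟨0, 64, 64, 128, -64, 64, -64, 64⟩,
 ⟨64, 128, 0, 128, -64, 64, -64, 64⟩,
 ⟨0, 128, 128, 256, -64, 64, -64, 64⟩,
 ⟨128, 256, 0, 256, -64, 64, -64, 64⟩,
 ⟨0, 256, 256, 512, -64, 64, -64, 64⟩,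
 ⟨256, 512, 0, 512, -64, 64, -64, 64⟩,
 ⟨512, 1024, 0, 512, -64, 64, -64, 64⟩,
 ⟨0, 1024, 512, 1024, -64, 64, -64, 64⟩,
 ⟨0, 1024, 1024, 2048, -64, 64, -64, 64⟩,
 ⟨0, 1024, 2048, 4096, -64, 64, -64, 64⟩,
 ⟨1024, 2048, 0, 4096, -64, 64, -64, 64⟩,
 ⟨2048, 4096, 0, 4096, -64, 64, -64, 64⟩]

theorem dD3K1_top : chk cfgD3K1 xsD3K1
 (.spA 2048 (.spA 1024 (.spC 2048 (.spC 1024 (.spC 512 (.spA 512 (.spA 256 (.spC 256 (.spA 128 (.spC 128 (.spA 64 (.spC 64 (.spA 32 (.spC 32 (.spC 16 .ext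
 .ext)
 .ext)
 .ext)
 .ext)
 .ext)
 .ext)
 .ext)
 .ext)
 .ext)
 .ext)
 .ext)
 .ext)
 .ext)
 .ext)
 .ext)
  ⟨0, 4096, 0, 4096, -64, 64, -64, 64⟩ = true := by decide +kernel

end Vale.Agent.P154
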