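import Vale.Agent.P154.Data.Cfgs

namespace Vale.Agent.P154

theorem dD4K1_6 : chk cfgD4K1 []
 (.lf ⟨⟨128, 128, 256, 64, 128, 0, 1, 1, 2, 0, -46, 0, 46, -12, -32, 12, 32, 2097152, 2096765, 2097152, 2096378, 2097152, 2096771, 2097152, 2096390⟩, 0, 741456, 64, 741456, 2097152, 110, false, false, false, false, false, -256, -256, -256, 256, 216⟩)
  ⟨0, 128, 128, 256, -64, 64, -64, 64⟩ = true := by decide +kernel

theorem dD4K1_7 : chk cfgD4K1 []
 (.spC 128 (.lf ⟨⟨128, 128, 64, 256, 128, 1, 2, 0, 1, -12, -32, 12, 32, 0, -46, 0, 46, 2097152, 2097152, 2096765, 2096378, 2097152, 2097152, 2096771, 2096390⟩, 741456, 2097152, 110, 0, 741456, 64, false, false, false, false, false, -256, -256, -256, 256, 216⟩)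
 (.lf ⟨⟨128, 128, 64, 64, 32, 1, 2, 1, 2, -12, -32, 12, 32, -12, -32, 12, 32, 524191, 524094, 524094, 523900, 524193, 524098, 524098, 523908⟩, 741456, 2097152, 110, 741456, 2097152, 110, false, false, false, false, false, -256, -256, -256, 256, 200⟩))
  ⟨128, 256, 0, 256, -64, 64, -64, 64⟩ = true := by decide +kernel

theorem dD4K1_8 : chk cfgD4K1 []
 (.lf ⟨⟨64, 64, 128, 64, 64, 0, 1, 1, 2, 0, -32, 0, 32, -16, -46, 16, 46, 262144, 261950, 262144, 261754, 262144, 261954, 262144, 261766⟩, 0, 2097152, 90, 2097152, 5931642, 156, false, false, false, false, false, -256, -256, -256, 256, 192⟩)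
  ⟨0, 256, 256, 512, -64, 64, -64, 64⟩ = true := by decide +kernel

theorem dD4K1_9 : chk cfgD4K1 []
 (.spC 256 (.lf ⟨⟨64, 64, 64, 128, 64, 1, 2, 0, 1, -16, -46, 16, 46, 0, -32, 0, 32, 262144, 262144, 261950, 261754, 262144, 262144, 261954, 261766⟩, 2097152, 5931642, 156, 0, 2097152, 90, false, false, false, false, false, -256, -256, -256, 256, 192⟩)
 (.lf ⟨⟨64, 64, 256, 256, 64, 1, 2, 1, 2, -64, -182, 64, 182, -64, -182, 64, 182, 261950, 261754, 261754, 261359, 261954, 261766, 261766, 261393⟩, 2097152, 5931642, 156, 2097152, 5931642, 156, false, false, false, false, false, -256, -256, -256, 256, 200⟩))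
  ⟨256, 512, 0, 512, -64, 64, -64, 64⟩ = true := by decide +kernel

theorem dD4K1_10 : chk cfgD4K1 []
 (.spP 32 (.lf ⟨⟨32, 32, 128, 512, 128, 1, 2, 0, 1, -46, -128, 23, 64, 0, -182, 0, 182, 131072, 131072, 130679, 130281, 131072, 131072, 130697, 130327⟩, 5931642, 16777216, 221, 0, 5931642, 128, false, false, false, false, false, -256, -256, -256, 256, 192⟩)
 (.lf ⟨⟨32, 32, 32, 128, 32, 1, 2, 0, 1, 5, 15, 12, 32, 0, -46, 0, 46, 32768, 32768, 32669, 32570, 32768, 32768, 32675, 32582⟩, 5931642, 16777216, 221, 0, 5931642, 128, false, false, false, false, false, 128, -256, -256, 256, 176⟩))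
  ⟨512, 1024, 0, 512, -64, 64, -64, 64⟩ = true := by decide +kernel

theorem dD4K1_11 : chk cfgD4K1 []
 (.spA 512 (.spQ 32 (.lf ⟨⟨32, 32, 512, 128, 128, 0, 1, 1, 2, 0, -182, 0, 182, -46, -128, 23, 64, 131072, 130679, 131072, 130281, 131072, 130697, 131072, 130327⟩, 0, 5931642, 128, 5931642, 16777216, 221, false, false, false, false, false, -256, -256, -256, 256, 192⟩)
 (.lf ⟨⟨32, 32, 128, 32, 32, 0, 1, 1, 2, 0, -46, 0, 46, 5, 15, 12, 32, 32768, 32669, 32768, 32570, 32768, 32675, 32768, 32582⟩, 0, 5931642, 128, 5931642, 16777216, 221, false, false, false, false, false, -256, 128, -256, 256, 176⟩))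
 (.spQ 32 (.spP 32 (.lf ⟨⟨32, 32, 128, 128, 32, 1, 2, 1, 2, -46, -128, 23, 64, -46, -128, 23, 64, 32669, 32570, 32570, 32368, 32675, 32582, 32582, 32400⟩, 5931642, 16777216, 221, 5931642, 16777216, 221, false, false, false, false, false, -256, -256, -256, 256, 176⟩)
 (.lf ⟨⟨32, 32, 32, 32, 8, 1, 2, 1, 2, 5, 15, 12, 32, -12, -32, 6, 16, 8167, 8142, 8142, 8092, 8169, 8146, 8146, 8100⟩, 5931642, 16777216, 221, 5931642, 16777216, 221, false, false, false, false, false, 128, -256, -256, 256, 160⟩))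
 (.lf ⟨⟨32, 32, 32, 32, 8, 1, 2, 1, 2, -12, -32, 12, 32, 5, 15, 12, 32, 8167, 8142, 8142, 8092, 8169, 8146, 8146, 8100⟩, 5931642, 16777216, 221, 5931642, 16777216, 221, false, false, false, false, false, -256, 128, -256, 256, 160⟩)))
  ⟨0, 1024, 512, 1024, -64, 64, -64, 64⟩ = true := by decide +kernel

end Vale.Agent.P154
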