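import Vale.Agent.P154.Data.Cfgs

namespace Vale.Agent.P154

theorem dD7K2_36 : chk cfgD7K2 []
 (.lf ⟨⟨16, 28, 16, 32, 2, 5, 6, 1, 2, 11, 14, 45, 59, 5, 16, 13, 35, 864, 857, 831, 817, 869, 863, 842, 832⟩, 187574978, 246573712, 600, 7247077, 20497827, 237, false, false, false, false, false, 32, 128, -204, 256, 136⟩)
  ⟨1280, 1536, 1024, 2048, 8, 32, 32, 64⟩ = true := by decide +kernel

theorem dD7K2_37 : chk cfgD7K2 []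
 (.lf ⟨⟨8, 28, 128, 512, 32, 3, 4, 1, 2, 128, 512, 236, 363, -194, 387, 194, 548, 6857, 6749, 6529, 6303, 6903, 6819, 6655, 6497⟩, 246573712, 379625063, 677, 7247077, 20497827, 237, true, true, false, true, false, 69, -256, -256, 256, 168⟩)
  ⟨1536, 2048, 1024, 2048, -64, 32, -64, 64⟩ = true := by decide +kernel

theorem dD7K2_38 : chk cfgD7K2 []
 (.lf ⟨⟨4, 28, 16, 32, 4, 1, 2, 1, 2, 7, 22, 16, 46, -13, 24, 13, 35, 435, 421, 421, 393, 437, 427, 427, 407⟩, 134217728, 379625063, 627, 7247077, 20497827, 237, false, true, false, false, false, 128, -256, -256, 256, 128⟩)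
  ⟨1024, 2048, 1024, 2048, 32, 64, -64, 64⟩ = true := by decide +kernel

theorem dD7K2_39 : chk cfgD7K2 []
 (.spP 32 (.spA 1536 (.lf ⟨⟨8, 14, 64, 128, 8, 2, 3, 1, 2, -128, 64, 64, 118, 48, 193, 69, 194, 843, 816, 787, 729, 853, 832, 812, 774⟩, 134217728, 246573712, 572, 20497827, 57976609, 335, true, true, false, false, true, -256, 181, -256, 248, 144⟩)
 (.lf ⟨⟨8, 14, 32, 128, 4, 3, 4, 1, 2, 32, 128, 59, 91, 48, 193, 69, 194, 410, 397, 370, 343, 416, 406, 387, 369⟩, 246573712, 379625063, 677, 20497827, 57976609, 335, true, true, false, true, true, 69, 181, -126, 248, 136⟩))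
 (.lf ⟨⟨4, 14, 16, 32, 2, 1, 2, 1, 2, 7, 22, 16, 46, 12, 48, 18, 49, 105, 99, 99, 86, 107, 102, 102, 93⟩, 134217728, 379625063, 627, 20497827, 57976609, 335, false, true, false, false, true, 128, 181, -67, 256, 120⟩))
  ⟨1024, 2048, 2048, 4096, -64, 64, -64, 64⟩ = true := by decide +kernel

theorem dD7K2_40 : chk cfgD7K2 []
 (.spC 2048 (.lf ⟨⟨2, 14, 8, 64, 4, 1, 2, 0, 1, 8, 32, 12, 32, -49, 24, 0, 35, 112, 112, 98, 83, 112, 112, 102, 93⟩, 379625063, 1073741824, 886, 0, 20497827, 193, true, true, false, true, false, 181, -256, -256, 256, 120⟩)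
 (.lf ⟨⟨2, 14, 8, 32, 2, 1, 2, 1, 2, 8, 32, 12, 32, 12, 48, 18, 49, 49, 43, 43, 31, 51, 47, 47, 39⟩, 379625063, 1073741824, 886, 20497827, 57976609, 335, true, true, false, true, true, 181, 181, -1, 256, 112⟩))
  ⟨2048, 4096, 0, 4096, -64, 64, -64, 64⟩ = true := by decide +kernel

/-- cells -/
def xsD7K2 : List Cell := [⟨0, 128, 0, 256, -64, 64, -64, 64⟩,
 ⟨0, 128, 256, 512, -64, 64, -64, 64⟩,
 ⟨128, 256, 0, 512, -64, 64, -64, 64⟩,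
 ⟨0, 256, 512, 1024, -64, 64, -64, 64⟩,
 ⟨256, 512, 0, 1024, -64, 64, -64, 64⟩,
 ⟨0, 512, 1024, 2048, -64, 64, -64, 64⟩,
 ⟨0, 512, 2048, 4096, -64, 64, -64, 64⟩,
 ⟨512, 1024, 0, 512, -64, -16, -64, 64⟩,
 ⟨512, 768, 0, 512, -16, 32, -64, 64⟩,
 ⟨768, 1024, 0, 512, -16, 32, -64, 64⟩,
 ⟨512, 1024, 0, 512, 32, 64, -64, 64⟩,
 ⟨512, 1024, 512, 1024, -64, 64, -64, 64⟩,
 ⟨512, 1024, 1024, 2048, -64, 64, -64, 64⟩,
 ⟨512, 1024, 2048, 4096, -64, 64, -64, 64⟩,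
 ⟨1024, 1536, 0, 512, -64, -16, -64, 64⟩,
 ⟨1024, 1536, 0, 256, -16, 32, -64, 64⟩,
 ⟨1024, 1536, 256, 512, -16, 32, -64, 64⟩,
 ⟨1024, 1536, 512, 1024, -64, -16, -64, 64⟩,
 ⟨1024, 1280, 512, 1024, -16, 8, -64, -16⟩,
 ⟨1280, 1536, 512, 768, -16, 8, -64, -40⟩,
 ⟨1280, 1536, 768, 1024, -16, 8, -64, -40⟩,
 ⟨1280, 1536, 512, 1024, -16, 8, -40, -16⟩,
 ⟨1024, 1536, 512, 1024, -16, 8, -16, 32⟩,
 ⟨1024, 1536, 512, 1024, -16, 8, 32, 64⟩,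
 ⟨1024, 1280, 512, 1024, 8, 32, -64, 32⟩,
 ⟨1280, 1536, 512, 1024, 8, 32, -64, -16⟩,
 ⟨1280, 1536, 512, 1024, 8, 32, -16, 32⟩,
 ⟨1024, 1536, 512, 1024, 8, 32, 32, 64⟩,
 ⟨1536, 2048, 0, 1024, -64, 32, -64, 64⟩,
 ⟨1024, 2048, 0, 1024, 32, 64, -64, 64⟩,
 ⟨1024, 1536, 1024, 2048, -64, -16, -64, 64⟩,
 ⟨1024, 1280, 1024, 2048, -16, 8, -64, 64⟩,
 ⟨1280, 1536, 1024, 2048, -16, 8, -64, 64⟩,
 ⟨1024, 1280, 1024, 2048, 8, 32, -64, 64⟩,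
 ⟨1280, 1536, 1024, 1536, 8, 32, -64, 32⟩,
 ⟨1280, 1536, 1536, 2048, 8, 32, -64, 32⟩,
 ⟨1280, 1536, 1024, 2048, 8, 32, 32, 64⟩,
 ⟨1536, 2048, 1024, 2048, -64, 32, -64, 64⟩,
 ⟨1024, 2048, 1024, 2048, 32, 64, -64, 64⟩,
 ⟨1024, 2048, 2048, 4096, -64, 64, -64, 64⟩,
 ⟨2048, 4096, 0, 4096, -64, 64, -64, 64⟩]

theorem dD7K2_top : chk cfgD7K2 xsD7K2
 (.spA 2048 (.spA 1024 (.spA 512 (.spC 2048 (.spC 1024 (.spA 256 (.spC 512 (.spA 128 (.spC 256 .ext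
 .ext)
 .ext)
 .ext)
 .ext)
 .ext)
 .ext)
 (.spC 2048 (.spC 1024 (.spC 512 (.spP 32 (.spP (-16) .ext
 (.spA 768 .ext
 .ext))
 .ext)
 .ext)
 .ext)
 .ext))
 (.spC 2048 (.spC 1024 (.spP 32 (.spA 1536 (.spC 512 (.spP (-16) .ext
 (.spC 256 .ext
 .ext))
 (.spP (-16) .ext
 (.spP 8 (.spQ 32 (.spQ (-16) (.spA 1280 .ext
 (.spQ (-40) (.spC 768 .ext
 .ext)
 .ext))
 .ext)
 .ext)
 (.spQ 32 (.spA 1280 .ext
 (.spQ (-16) .ext
 .ext))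
 .ext))))
 .ext)
 .ext)
 (.spP 32 (.spA 1536 (.spP (-16) .ext
 (.spP 8 (.spA 1280 .ext
 .ext)
 (.spA 1280 .ext
 (.spQ 32 (.spC 1536 .ext
 .ext)
 .ext))))
 .ext)
 .ext))
 .ext))
 .ext)
  ⟨0, 4096, 0, 4096, -64, 64, -64, 64⟩ = true := by decide +kernel

end Vale.Agent.P154
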